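import Mathlib

/-! Boolean cube, polynomial threshold functions, average sensitivity. -/

namespace Vale.Agent.H24.Cube

/-- A bit read as a real number: `true` is `1` and `false` is `-1`. -/
def pm (b : Bool) : ℝ := if b then 1 else -1

/-- The point `x` with coordinate `i` negated. -/
def flip {n : ℕ} (i : Fin n) (x : Fin n → Bool) : Fin n → Bool :=
  Function.update x i (!(x i))

/-- The sign function, with `sgn 0 = 1`. -/
noncomputable def sgn (t : ℝ) : ℝ := if 0 ≤ t then 1 else -1

/-- Average sensitivity (total influence): the sum over the coordinates `i` of the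
probability, over a uniform point `x`, that `f x` differs from `f` at `x` with
coordinate `i` negated. -/
noncomputable def avgSens {n : ℕ} (f : (Fin n → Bool) → ℝ) : ℝ :=
  ∑ i : Fin n, ((Finset.univ.filter fun x : Fin n → Bool => f x ≠ f (flip i x)).card : ℝ) / 2 ^ n

/-- `f` is a polynomial threshold function of degree at most `d` on `{-1,1}^n`. -/
def IsPTF (n d : ℕ) (f : (Fin n → Bool) → ℝ) : Prop :=
  ∃ p : MvPolynomial (Fin n) ℝ, p.totalDegree ≤ d ∧
    ∀ x, f x = sgn (MvPolynomial.eval (fun i => pm (x i)) p)

/-- `I(n,d)`: the maximum of the average sensitivity over all polynomial threshold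
functions of degree at most `d` in `n` variables. -/
noncomputable def maxAvgSens (n d : ℕ) : ℝ :=
  sSup {r : ℝ | ∃ f : (Fin n → Bool) → ℝ, IsPTF n d f ∧ r = avgSens f}

end Vale.Agent.H24.Cube
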