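import Vale.Agent.H24.CubePTF

open Finset

namespace Vale.Agent.H24.Cube

variable {n : ℕ}

lemma pm_pow (b : Bool) (k : ℕ) : pm b ^ k = if Odd k then pm b else 1 := by
  split_ifs with h
  · obtain ⟨m, rfl⟩ := h
    rw [pow_add, pow_mul, sq, pm_mul_self]; simp
  · rw [Nat.not_odd_iff_even] at h
    obtain ⟨m, rfl⟩ := h
    rw [← two_mul, pow_mul, sq, pm_mul_self]; simp

lemma eval_mem_LD {d : ℕ} (p : MvPolynomial (Fin n) ℝ) (hp : p.totalDegree ≤ d) :
    (fun x : Fin n → Bool => MvPolynomial.eval (fun i => pm (x i)) p) ∈ LD n d := by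
  have : (fun x : Fin n → Bool => MvPolynomial.eval (fun i => pm (x i)) p)
      = ∑ m ∈ p.support, p.coeff m • chi (Finset.univ.filter fun i => Odd (m i)) := by
    funext x
    rw [MvPolynomial.eval_eq', Finset.sum_apply]
    refine Finset.sum_congr rfl fun m _ => ?_
    rw [Pi.smul_apply, smul_eq_mul, chi_eq]
    congr 1
    refine Finset.prod_congr rfl fun i _ => ?_
    rw [pm_pow]
    simp
  rw [this]
  refine Submodule.sum_mem _ fun m hm => Submodule.smul_mem _ _ (chi_mem_LD ?_)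
  have h1 := (MvPolynomial.le_totalDegree hm).trans hp
  refine le_trans ?_ h1
  rw [Finsupp.sum_fintype _ _ (fun _ => rfl), Finset.card_filter]
  refine Finset.sum_le_sum fun i _ => ?_
  split_ifs with h
  · exact h.pos
  · exact Nat.zero_le _

lemma sgn_pm (t : ℝ) : sgn t = 1 ∨ sgn t = -1 := by
  unfold sgn; split_ifs <;> simp

lemma IsPTF.toPT {d : ℕ} {f : (Fin n → Bool) → ℝ} (h : IsPTF n d f) : PT n d f := by
  obtain ⟨p, hp, hf⟩ := h
  refine ⟨fun x => by rw [hf]; exact sgn_pm _, ?_⟩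
  set v : (Fin n → Bool) → ℝ := fun x => MvPolynomial.eval (fun i => pm (x i)) p with hv
  obtain ⟨ε, hε, hε2⟩ : ∃ ε : ℝ, 0 < ε ∧ ∀ x, v x < 0 → v x + ε < 0 := by
    set w : (Fin n → Bool) → ℝ := fun x => if v x < 0 then - v x / 2 else 1 with hw
    have hne : (Finset.univ : Finset (Fin n → Bool)).Nonempty := Finset.univ_nonempty
    refine ⟨Finset.univ.inf' hne w, ?_, ?_⟩
    · rw [Finset.lt_inf'_iff]
      intro x _
      simp only [hw]
      split_ifs with h
      · linarith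
      · norm_num
    · intro x hx
      have h1 : Finset.univ.inf' hne w ≤ w x := Finset.inf'_le _ (Finset.mem_univ x)
      have h2 : w x = - v x / 2 := by simp only [hw]; rw [if_pos hx]
      linarith
  refine ⟨v + fun _ => ε, Submodule.add_mem _ (eval_mem_LD p hp) (const_mem_LD d ε), ?_⟩
  intro x
  rw [hf x]
  show 0 < sgn (v x) * (v x + ε)
  unfold sgn
  split_ifs with h
  · linarith
  · have := hε2 x (not_le.mp h)
    linarith

/-! restriction of one variable -/

lemma insertNth_mem_LD {d : ℕ} (i : Fin (n + 1)) (b : Bool) {P : (Fin (n + 1) → Bool) → ℝ}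
    (hP : P ∈ LD (n + 1) d) :
    (fun y : Fin n → Bool => P (Fin.insertNth i b y)) ∈ LD n d := by
  induction hP using Submodule.span_induction with
  | mem x hx =>
    obtain ⟨S, hS, rfl⟩ := hx
    set T : Finset (Fin n) := Finset.univ.filter fun j => i.succAbove j ∈ S with hT
    have : (fun y : Fin n → Bool => chi S (Fin.insertNth i b y))
        = (if i ∈ S then pm b else 1) • chi T := by
      funext y
      rw [chi_eq, Fin.prod_univ_succAbove _ i, Pi.smul_apply, smul_eq_mul, chi_eq]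
      simp [hT]
    rw [this]
    refine Submodule.smul_mem _ _ (chi_mem_LD ?_)
    refine le_trans ?_ hS
    exact Finset.card_le_card_of_injOn (fun j => i.succAbove j)
      (fun j hj => by simpa [hT] using hj) (fun a _ c _ h => Fin.succAbove_right_injective h)
  | zero => exact Submodule.zero_mem _
  | add x y _ _ hx hy => exact Submodule.add_mem _ hx hy
  | smul a x _ hx => exact Submodule.smul_mem _ a hx

lemma PT.restrict {d : ℕ} {f : (Fin (n + 1) → Bool) → ℝ} (h : PT (n + 1) d f) (i : Fin (n + 1))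
    (b : Bool) : PT n d (fun y => f (Fin.insertNth i b y)) := by
  obtain ⟨hf, P, hP, hfP⟩ := h
  exact ⟨fun x => hf _, _, insertNth_mem_LD i b hP, fun x => hfP _⟩

lemma flip_insertNth (i : Fin (n + 1)) (j : Fin n) (b : Bool) (y : Fin n → Bool) :
    flip (i.succAbove j) (Fin.insertNth (α := fun _ => Bool) i b y)
      = Fin.insertNth (α := fun _ => Bool) i b (flip j y) := by
  funext l
  rcases Fin.eq_self_or_eq_succAbove i l with h | ⟨m, h⟩
  · subst h
    rw [flip_apply_ne (Fin.succAbove_ne _ _).symm]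
    simp
  · subst h
    by_cases hm : m = j
    · subst hm
      rw [flip_apply_self]
      simp [flip_apply_self]
    · rw [flip_apply_ne (fun h => hm (Fin.succAbove_right_injective h))]
      simp [flip_apply_ne hm]

lemma sensCount_restrict (f : (Fin (n + 1) → Bool) → ℝ) (i : Fin (n + 1)) (j : Fin n) :
    sensCount f (i.succAbove j) = ∑ b : Bool, sensCount (fun y => f (Fin.insertNth i b y)) j := by
  simp only [sensCount, Finset.card_filter]
  push_cast
  rw [← (Fin.insertNthEquiv (fun _ => Bool) i).sum_comp, Fintype.sum_prod_type]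
  refine Finset.sum_congr rfl fun b _ => Finset.sum_congr rfl fun y _ => ?_
  show (if f (Fin.insertNth i b y) ≠ f (flip (i.succAbove j) (Fin.insertNth i b y)) then (1:ℝ) else 0)
    = if f (Fin.insertNth i b y) ≠ f (Fin.insertNth i b (flip j y)) then (1:ℝ) else 0
  rw [flip_insertNth]

lemma avgSens_restrict (f : (Fin (n + 1) → Bool) → ℝ) :
    2 * (n : ℝ) * avgSens f
      = ∑ i : Fin (n + 1), ∑ b : Bool, avgSens (fun y => f (Fin.insertNth i b y)) := by
  have h1 : ∀ i : Fin (n + 1), ∑ b : Bool, avgSens (fun y => f (Fin.insertNth i b y))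
      = 2 * (avgSens f - sensCount f i / 2 ^ (n + 1)) := by
    intro i
    have : avgSens f = sensCount f i / 2 ^ (n + 1)
        + ∑ j : Fin n, sensCount f (i.succAbove j) / 2 ^ (n + 1) := by
      rw [avgSens_eq, Fin.sum_univ_succAbove _ i]
    rw [this]
    simp_rw [sensCount_restrict, avgSens_eq]
    rw [Finset.sum_comm]
    simp_rw [← Finset.sum_div]
    rw [pow_succ]
    field_simp
    ring
  simp_rw [h1]
  rw [← Finset.mul_sum, Finset.sum_sub_distrib, ← avgSens_eq]
  simp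
  ring

theorem PT_mono_step {d : ℕ} {a : ℝ} (h : ∀ f : (Fin n → Bool) → ℝ, PT n d f → avgSens f ≤ a * n)
    (hn : 0 < n) (f : (Fin (n + 1) → Bool) → ℝ) (hf : PT (n + 1) d f) :
    avgSens f ≤ a * (n + 1 : ℕ) := by
  have h1 := avgSens_restrict f
  have h2 : ∑ i : Fin (n + 1), ∑ b : Bool, avgSens (fun y => f (Fin.insertNth i b y))
      ≤ ∑ _i : Fin (n + 1), ∑ _b : Bool, a * n :=
    Finset.sum_le_sum fun i _ => Finset.sum_le_sum fun b _ => h _ (hf.restrict i b)
  rw [← h1] at h2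
  simp at h2
  have hn' : (0:ℝ) < n := by exact_mod_cast hn
  push_cast
  have : 2 * (n:ℝ) * avgSens f ≤ 2 * (n:ℝ) * (a * (n + 1)) := by nlinarith
  exact le_of_mul_le_mul_left this (by positivity)

theorem PT_mono {d m : ℕ} {a : ℝ} (hm : 0 < m)
    (h : ∀ f : (Fin m → Bool) → ℝ, PT m d f → avgSens f ≤ a * m) :
    ∀ n, m ≤ n → ∀ f : (Fin n → Bool) → ℝ, PT n d f → avgSens f ≤ a * n := by
  intro n hn
  induction n, hn using Nat.le_induction with
  | base => exact h
  | succ n hmn ih =>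
    intro f hf
    exact PT_mono_step ih (by omega) f hf

/-! numerics -/

lemma centralBinom_bound (M : ℕ) : (M.centralBinom) ^ 2 * (2 * M + 1) ≤ 16 ^ M := by
  induction M with
  | zero => simp
  | succ M ih =>
    have h := Nat.succ_mul_centralBinom_succ M
    have hpos : 0 < (M + 1) ^ 2 := by positivity
    have e : (M + 1) ^ 2 * ((M + 1).centralBinom ^ 2 * (2 * (M + 1) + 1))
        = ((M + 1) * (M + 1).centralBinom) ^ 2 * (2 * (M + 1) + 1) := by ring
    have : (M + 1) ^ 2 * ((M + 1).centralBinom ^ 2 * (2 * (M + 1) + 1)) ≤ (M + 1) ^ 2 * 16 ^ (M + 1) := by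
      rw [e, h]
      calc (2 * (2 * M + 1) * M.centralBinom) ^ 2 * (2 * (M + 1) + 1)
          = (M.centralBinom ^ 2 * (2 * M + 1)) * (4 * (2 * M + 1) * (2 * M + 3)) := by ring
        _ ≤ 16 ^ M * (4 * (2 * M + 1) * (2 * M + 3)) := Nat.mul_le_mul_right _ ih
        _ ≤ 16 ^ M * (16 * (M + 1) ^ 2) := Nat.mul_le_mul_left _ (by nlinarith)
        _ = (M + 1) ^ 2 * 16 ^ (M + 1) := by ring
    exact Nat.le_of_mul_le_mul_left this hpos

lemma half_sum (M : ℕ) :
    2 * ∑ i ∈ Finset.range M, (2 * M).choose i + M.centralBinom = 4 ^ M := by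
  have h1 : ∑ i ∈ Finset.range (2 * M + 1), (2 * M).choose i = 4 ^ M := by
    rw [Nat.sum_range_choose, pow_mul]
    norm_num
  have h2 : ∑ i ∈ Finset.range (2 * M + 1), (2 * M).choose i
      = ∑ i ∈ Finset.range M, (2 * M).choose i + ∑ i ∈ Finset.range (M + 1), (2 * M).choose (M + i) := by
    rw [show 2 * M + 1 = M + (M + 1) by ring, Finset.sum_range_add]
  have h3 : ∑ i ∈ Finset.range (M + 1), (2 * M).choose (M + i)
      = M.centralBinom + ∑ i ∈ Finset.range M, (2 * M).choose (M + (i + 1)) := by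
    rw [Finset.sum_range_succ', add_comm]
    simp [Nat.centralBinom]
  have h4 : ∑ i ∈ Finset.range M, (2 * M).choose (M + (i + 1))
      = ∑ i ∈ Finset.range M, (2 * M).choose i := by
    rw [← Finset.sum_range_reflect]
    refine Finset.sum_congr rfl fun i hi => ?_
    have hi' := Finset.mem_range.mp hi
    rw [← Nat.choose_symm (show i ≤ 2 * M by omega)]
    congr 1
    omega
  omega

lemma tail_bound (d : ℕ) (hd : 1 ≤ d) :
    4 ^ (5 * d ^ 2) ≤ 6 * ∑ i ∈ Finset.range (5 * d ^ 2 - d + 1), (2 * (5 * d ^ 2)).choose i := by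
  set M := 5 * d ^ 2 with hM
  have hdM : d ≤ M := by nlinarith
  have h1 := half_sum M
  have hsplit : ∑ i ∈ Finset.range M, (2 * M).choose i
      = ∑ i ∈ Finset.range (M - d + 1), (2 * M).choose i
        + ∑ i ∈ Finset.range (d - 1), (2 * M).choose (M - d + 1 + i) := by
    rw [← Finset.sum_range_add]
    congr 2
    omega
  have h2 : ∑ i ∈ Finset.range (d - 1), (2 * M).choose (M - d + 1 + i) ≤ (d - 1) * M.centralBinom := by
    calc ∑ i ∈ Finset.range (d - 1), (2 * M).choose (M - d + 1 + i)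
        ≤ ∑ _i ∈ Finset.range (d - 1), M.centralBinom :=
          Finset.sum_le_sum fun i _ => Nat.choose_le_centralBinom _ _
      _ = (d - 1) * M.centralBinom := by simp
  have h3 : 3 * d * M.centralBinom ≤ 4 ^ M := by
    have hb := centralBinom_bound M
    have : (3 * d * M.centralBinom) ^ 2 ≤ (4 ^ M) ^ 2 := by
      calc (3 * d * M.centralBinom) ^ 2 = M.centralBinom ^ 2 * (9 * d ^ 2) := by ring
        _ ≤ M.centralBinom ^ 2 * (2 * M + 1) := Nat.mul_le_mul_left _ (by rw [hM]; nlinarith)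
        _ ≤ 16 ^ M := hb
        _ = (4 ^ M) ^ 2 := by
          rw [show (16 : ℕ) = 4 ^ 2 by norm_num, ← pow_mul, ← pow_mul, mul_comm]
    exact (Nat.pow_le_pow_iff_left (by norm_num)).mp this
  have h4 : (d - 1) * M.centralBinom + M.centralBinom = d * M.centralBinom := by
    obtain ⟨e, rfl⟩ : ∃ e, d = e + 1 := ⟨d - 1, by omega⟩
    simp; ring
  have h5 : 3 * (d * M.centralBinom) ≤ 4 ^ M := by rw [← mul_assoc]; exact h3
  omega

lemma filter_eq (d : ℕ) (hd : 1 ≤ d) :
    (Finset.range (10 * d ^ 2 + 1)).filter (fun i => 2 * i + (d - 1) + d < 10 * d ^ 2)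
      = Finset.range (5 * d ^ 2 - d + 1) := by
  have : d ≤ 5 * d ^ 2 := by nlinarith
  ext i
  simp only [Finset.mem_filter, Finset.mem_range]
  omega

lemma base_case (d : ℕ) (hd : 1 ≤ d) (f : (Fin (10 * d ^ 2) → Bool) → ℝ) (hf : PT (10 * d ^ 2) d f) :
    avgSens f ≤ (1 - 1 / (60 * d)) * ((10 * d ^ 2 : ℕ) : ℝ) := by
  have h1 := PT_bound (k := d - 1) hf
  rw [filter_eq d hd] at h1
  have h2 := tail_bound d hd
  have h3 : ((4:ℝ) ^ (5 * d ^ 2)) ≤ 6 * ∑ i ∈ Finset.range (5 * d ^ 2 - d + 1), ((10 * d ^ 2).choose i : ℝ) := by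
    have e : 2 * (5 * d ^ 2) = 10 * d ^ 2 := by ring
    rw [e] at h2
    exact_mod_cast h2
  have h4 : (2:ℝ) ^ (10 * d ^ 2) = 4 ^ (5 * d ^ 2) := by
    rw [show (4:ℝ) = 2 ^ 2 by norm_num, ← pow_mul]; congr 1; ring
  have h5 : ((d - 1 : ℕ) : ℝ) + 1 = d := by
    rw [Nat.cast_sub hd]; simp
  rw [h5, h4] at h1
  have hpos : (0:ℝ) < 4 ^ (5 * d ^ 2) := by positivity
  have hd' : (1:ℝ) ≤ d := by exact_mod_cast hd
  have h6 : (d:ℝ) / 6 ≤ d * (∑ i ∈ Finset.range (5 * d ^ 2 - d + 1), ((10 * d ^ 2).choose i : ℝ)) / 4 ^ (5 * d ^ 2) := by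
    rw [div_le_div_iff₀ (by norm_num) hpos]
    nlinarith
  have h7 : (1 - 1 / (60 * d)) * ((10 * d ^ 2 : ℕ) : ℝ) = ((10 * d ^ 2 : ℕ) : ℝ) - d / 6 := by
    push_cast
    field_simp
    ring
  rw [h7]
  linarith

theorem IsPTF_bound {d k : ℕ} {f : (Fin n → Bool) → ℝ} (h : IsPTF n d f) :
    avgSens f ≤ n - (k + 1) *
      (∑ i ∈ (Finset.range (n + 1)).filter (fun i => 2 * i + k + d < n), (n.choose i : ℝ)) / 2 ^ n :=
  PT_bound h.toPT

theorem IsPTF_bound' {d : ℕ} (hd : 1 ≤ d) (hn : 10 * d ^ 2 ≤ n) {f : (Fin n → Bool) → ℝ}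
    (h : IsPTF n d f) : avgSens f ≤ (1 - 1 / (60 * d)) * n :=
  PT_mono (by positivity) (base_case d hd) n hn f h.toPT

lemma isPTF_one (d : ℕ) : IsPTF n d (fun _ => 1) :=
  ⟨0, by simp, fun x => by simp [sgn]⟩

lemma maxAvgSens_le {d : ℕ} {a : ℝ} (h : ∀ f : (Fin n → Bool) → ℝ, IsPTF n d f → avgSens f ≤ a) :
    maxAvgSens n d ≤ a := by
  refine csSup_le ⟨_, _, isPTF_one d, rfl⟩ ?_
  rintro r ⟨f, hf, rfl⟩
  exact h f hf

end Vale.Agent.H24.Cube
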