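import Vale.Agent.H24.CubeDefs

open Finset

namespace Vale.Agent.H24.Cube

variable {n : ℕ}

/-- character -/
noncomputable def chi (S : Finset (Fin n)) (x : Fin n → Bool) : ℝ := ∏ i ∈ S, pm (x i)

lemma pm_mul_self (b : Bool) : pm b * pm b = 1 := by cases b <;> simp [pm]

lemma pm_not (b : Bool) : pm (!b) = - pm b := by cases b <;> simp [pm]

lemma pm_sum : ∑ b : Bool, pm b = 0 := by simp [pm]

lemma chi_eq (S : Finset (Fin n)) (x : Fin n → Bool) :
    chi S x = ∏ i, (if i ∈ S then pm (x i) else 1) := by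
  rw [chi, Finset.prod_ite_mem, Finset.univ_inter]

lemma chi_mul (S T : Finset (Fin n)) (x : Fin n → Bool) :
    chi S x * chi T x = chi (symmDiff S T) x := by
  rw [chi_eq, chi_eq, chi_eq, ← Finset.prod_mul_distrib]
  refine Finset.prod_congr rfl fun i _ => ?_
  by_cases h1 : i ∈ S <;> by_cases h2 : i ∈ T <;>
    simp [Finset.mem_symmDiff, h1, h2, pm_mul_self]

lemma chi_empty (x : Fin n → Bool) : chi ∅ x = 1 := by simp [chi]

lemma chi_mul_self (S : Finset (Fin n)) (x : Fin n → Bool) : chi S x * chi S x = 1 := by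
  rw [chi_mul, symmDiff_self]; exact chi_empty x

lemma sum_chi (S : Finset (Fin n)) : ∑ x : Fin n → Bool, chi S x = if S = ∅ then 2 ^ n else 0 := by
  have h : ∑ x : Fin n → Bool, chi S x = ∏ i : Fin n, ∑ b : Bool, (if i ∈ S then pm b else 1) := by
    rw [Finset.prod_univ_sum, Fintype.piFinset_univ]
    exact Finset.sum_congr rfl fun x _ => chi_eq S x
  rw [h]
  split_ifs with hS
  · subst hS; simp
  · obtain ⟨i, hi⟩ := Finset.nonempty_iff_ne_empty.mpr hS
    apply Finset.prod_eq_zero (Finset.mem_univ i)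
    simp only [hi, if_true]
    exact pm_sum

lemma sum_chi_mul (S T : Finset (Fin n)) :
    ∑ x : Fin n → Bool, chi S x * chi T x = if S = T then 2 ^ n else 0 := by
  simp_rw [chi_mul, sum_chi]
  have : symmDiff S T = ∅ ↔ S = T := by
    rw [← Finset.bot_eq_empty, symmDiff_eq_bot]
  simp only [this]

lemma sum_chi_dual (x y : Fin n → Bool) :
    ∑ S : Finset (Fin n), chi S x * chi S y = if x = y then 2 ^ n else 0 := by
  have h : ∑ S : Finset (Fin n), chi S x * chi S y = ∏ i : Fin n, (1 + pm (x i) * pm (y i)) := by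
    rw [Finset.prod_one_add, Finset.powerset_univ]
    refine Finset.sum_congr rfl fun S _ => ?_
    rw [chi, chi, Finset.prod_mul_distrib]
  rw [h]
  split_ifs with hxy
  · subst hxy
    simp only [pm_mul_self]
    simp only [Finset.prod_const, Finset.card_univ, Fintype.card_fin]
    norm_num
  · obtain ⟨i, hi⟩ := Function.ne_iff.mp hxy
    apply Finset.prod_eq_zero (Finset.mem_univ i)
    have : y i = !(x i) := by
      cases hx : x i <;> cases hy : y i <;> simp_all
    rw [this, pm_not]
    have := pm_mul_self (x i)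
    linarith

/-- Fourier coefficient -/
noncomputable def fc (g : (Fin n → Bool) → ℝ) (S : Finset (Fin n)) : ℝ :=
  (∑ x, g x * chi S x) / 2 ^ n

lemma fc_inv (g : (Fin n → Bool) → ℝ) (x : Fin n → Bool) :
    g x = ∑ S : Finset (Fin n), fc g S * chi S x := by
  have h2 : (2 : ℝ) ^ n ≠ 0 := by positivity
  have : ∑ S : Finset (Fin n), fc g S * chi S x
      = (∑ y, g y * ∑ S : Finset (Fin n), chi S y * chi S x) / 2 ^ n := by
    simp_rw [fc, Finset.mul_sum]
    rw [Finset.sum_comm, Finset.sum_div]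
    refine Finset.sum_congr rfl fun S _ => ?_
    rw [div_mul_eq_mul_div, Finset.sum_mul]
    congr 1
    exact Finset.sum_congr rfl fun y _ => by ring
  rw [this]
  simp_rw [sum_chi_dual]
  simp [h2]

lemma parseval (a : Finset (Fin n) → ℝ) :
    ∑ x : Fin n → Bool, (∑ S : Finset (Fin n), a S * chi S x) ^ 2
      = 2 ^ n * ∑ S : Finset (Fin n), a S ^ 2 := by
  have : ∀ x : Fin n → Bool, (∑ S : Finset (Fin n), a S * chi S x) ^ 2
      = ∑ S : Finset (Fin n), ∑ T : Finset (Fin n), a S * a T * (chi S x * chi T x) := by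
    intro x
    rw [sq, Finset.sum_mul_sum]
    refine Finset.sum_congr rfl fun S _ => Finset.sum_congr rfl fun T _ => by ring
  simp_rw [this]
  rw [Finset.sum_comm]
  rw [Finset.mul_sum]
  refine Finset.sum_congr rfl fun S _ => ?_
  rw [Finset.sum_comm]
  simp_rw [← Finset.mul_sum, sum_chi_mul]
  simp
  ring

lemma flip_apply_self (i : Fin n) (x : Fin n → Bool) : flip i x i = !(x i) := by
  simp [flip]

lemma flip_apply_ne {i j : Fin n} (h : j ≠ i) (x : Fin n → Bool) : flip i x j = x j := by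
  simp [flip, h]

lemma chi_flip (S : Finset (Fin n)) (i : Fin n) (x : Fin n → Bool) :
    chi S (flip i x) = (if i ∈ S then -1 else 1) * chi S x := by
  split_ifs with hi
  · rw [chi, chi, ← Finset.mul_prod_erase S _ hi, ← Finset.mul_prod_erase S (fun i => pm (x i)) hi,
      flip_apply_self, pm_not]
    have : ∏ j ∈ S.erase i, pm (flip i x j) = ∏ j ∈ S.erase i, pm (x j) :=
      Finset.prod_congr rfl fun j hj => by rw [flip_apply_ne (Finset.ne_of_mem_erase hj)]
    rw [this]; ring
  · rw [one_mul, chi, chi]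
    refine Finset.prod_congr rfl fun j hj => ?_
    have hne : j ≠ i := fun h => hi (by rw [← h]; exact hj)
    rw [flip_apply_ne hne]

/-- number of points where `i` is sensitive -/
noncomputable def sensCount (g : (Fin n → Bool) → ℝ) (i : Fin n) : ℝ :=
  ((Finset.univ.filter fun x : Fin n → Bool => g x ≠ g (flip i x)).card : ℝ)

lemma avgSens_eq (g : (Fin n → Bool) → ℝ) : avgSens g = ∑ i, sensCount g i / 2 ^ n := rfl

lemma sensCount_eq {g : (Fin n → Bool) → ℝ} (hg : ∀ x, g x = 1 ∨ g x = -1) (i : Fin n) :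
    sensCount g i = 2 ^ n * ∑ S : Finset (Fin n), (if i ∈ S then (fc g S) ^ 2 else 0) := by
  have h1 : sensCount g i = ∑ x : Fin n → Bool, (g x - g (flip i x)) ^ 2 / 4 := by
    rw [sensCount, Finset.card_filter]
    push_cast
    refine Finset.sum_congr rfl fun x _ => ?_
    rcases hg x with h | h <;> rcases hg (flip i x) with h' | h' <;> rw [h, h'] <;> norm_num
  have h2 : ∀ x : Fin n → Bool, g x - g (flip i x)
      = ∑ S : Finset (Fin n), (if i ∈ S then 2 * fc g S else 0) * chi S x := by
    intro x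
    conv_lhs => rw [fc_inv g x, fc_inv g (flip i x)]
    rw [← Finset.sum_sub_distrib]
    refine Finset.sum_congr rfl fun S _ => ?_
    rw [chi_flip]
    split_ifs <;> ring
  rw [h1, ← Finset.sum_div]
  simp_rw [h2]
  rw [parseval, mul_div_assoc, Finset.sum_div]
  congr 1
  refine Finset.sum_congr rfl fun S _ => ?_
  split_ifs <;> ring

lemma avgSens_fourier {g : (Fin n → Bool) → ℝ} (hg : ∀ x, g x = 1 ∨ g x = -1) :
    avgSens g = ∑ S : Finset (Fin n), (S.card : ℝ) * (fc g S) ^ 2 := by
  have h2 : (2 : ℝ) ^ n ≠ 0 := by positivity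
  rw [avgSens_eq]
  simp_rw [sensCount_eq hg, mul_div_assoc, mul_comm ((2:ℝ)^n), div_mul_cancel₀ _ h2]
  rw [Finset.sum_comm]
  refine Finset.sum_congr rfl fun S _ => ?_
  rw [Finset.sum_ite_mem, Finset.univ_inter, Finset.sum_const, nsmul_eq_mul]

end Vale.Agent.H24.Cube
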