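import Vale.Agent.H24.CubeFourier

open Finset

namespace Vale.Agent.H24.Cube

variable {n : ℕ}

/-- functions of degree at most `D` on the cube -/
noncomputable def LD (n D : ℕ) : Submodule ℝ ((Fin n → Bool) → ℝ) :=
  Submodule.span ℝ {h | ∃ S : Finset (Fin n), S.card ≤ D ∧ h = chi S}

lemma chi_mem_LD {D : ℕ} {S : Finset (Fin n)} (h : S.card ≤ D) : chi S ∈ LD n D :=
  Submodule.subset_span ⟨S, h, rfl⟩

lemma card_symmDiff_le (S T : Finset (Fin n)) : (symmDiff S T).card ≤ S.card + T.card := by
  have : symmDiff S T ⊆ S ∪ T := by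
    intro x hx
    rw [Finset.mem_symmDiff] at hx
    rw [Finset.mem_union]
    tauto
  exact (Finset.card_le_card this).trans (Finset.card_union_le S T)

lemma mul_mem_LD {a b : ℕ} {f g : (Fin n → Bool) → ℝ} (hf : f ∈ LD n a) (hg : g ∈ LD n b) :
    f * g ∈ LD n (a + b) := by
  have h := Submodule.mul_mem_mul hf hg
  rw [LD, LD, Submodule.span_mul_span] at h
  refine Submodule.span_le.mpr ?_ h
  rintro _ ⟨_, ⟨S, hS, rfl⟩, _, ⟨T, hT, rfl⟩, rfl⟩
  have : chi S * chi T = chi (symmDiff S T) := by
    funext x; exact chi_mul S T x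
  simp only [this]
  exact chi_mem_LD ((card_symmDiff_le S T).trans (Nat.add_le_add hS hT))

lemma LD_mono {a b : ℕ} (h : a ≤ b) : LD n a ≤ LD n b :=
  Submodule.span_mono (by rintro _ ⟨S, hS, rfl⟩; exact ⟨S, hS.trans h, rfl⟩)

lemma const_mem_LD (D : ℕ) (c : ℝ) : (fun _ => c) ∈ LD n D := by
  have : (fun _ : Fin n → Bool => c) = c • chi ∅ := by
    funext x; simp [chi_empty]
  rw [this]
  exact Submodule.smul_mem _ _ (chi_mem_LD (by simp))

lemma sum_mul_top {D : ℕ} (hD : D < n) {h : (Fin n → Bool) → ℝ} (hh : h ∈ LD n D) :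
    ∑ x, h x * chi Finset.univ x = 0 := by
  induction hh using Submodule.span_induction with
  | mem x hx =>
    obtain ⟨S, hS, rfl⟩ := hx
    rw [sum_chi_mul, if_neg]
    rintro rfl
    rw [Finset.card_univ, Fintype.card_fin] at hS
    omega
  | zero => simp
  | add x y _ _ hx hy => simp only [Pi.add_apply, add_mul, Finset.sum_add_distrib, hx, hy, add_zero]
  | smul a x _ hx =>
    simp only [Pi.smul_apply, smul_eq_mul, mul_assoc, ← Finset.mul_sum, hx, mul_zero]

/-- low degree part -/
noncomputable def low (k : ℕ) (g : (Fin n → Bool) → ℝ) (x : Fin n → Bool) : ℝ :=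
  ∑ S : Finset (Fin n), (if S.card ≤ k then fc g S else 0) * chi S x

lemma low_mem (k : ℕ) (g : (Fin n → Bool) → ℝ) : low k g ∈ LD n k := by
  have : low k g = ∑ S : Finset (Fin n), (if S.card ≤ k then fc g S else 0) • chi S := by
    funext x
    rw [low, Finset.sum_apply]
    exact Finset.sum_congr rfl fun S _ => rfl
  rw [this]
  refine Submodule.sum_mem _ fun S _ => ?_
  split_ifs with h
  · exact Submodule.smul_mem _ _ (chi_mem_LD h)
  · simp

lemma low_err {g : (Fin n → Bool) → ℝ} (hg : ∀ x, g x = 1 ∨ g x = -1) (k : ℕ) :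
    (k + 1 : ℝ) * ∑ x, (g x - low k g x) ^ 2 ≤ 2 ^ n * avgSens g := by
  have h1 : ∀ x, g x - low k g x
      = ∑ S : Finset (Fin n), (if S.card ≤ k then 0 else fc g S) * chi S x := by
    intro x
    conv_lhs => rw [fc_inv g x]
    rw [low, ← Finset.sum_sub_distrib]
    refine Finset.sum_congr rfl fun S _ => ?_
    split_ifs <;> ring
  simp_rw [h1]
  rw [parseval, avgSens_fourier hg]
  rw [mul_left_comm]
  refine mul_le_mul_of_nonneg_left ?_ (by positivity)
  rw [Finset.mul_sum]
  refine Finset.sum_le_sum fun S _ => ?_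
  split_ifs with h
  · have : (0:ℝ) ≤ (S.card : ℝ) * fc g S ^ 2 := by positivity
    simpa using this
  · have : (k + 1 : ℝ) ≤ (S.card : ℝ) := by
      have : k + 1 ≤ S.card := by omega
      exact_mod_cast this
    exact mul_le_mul_of_nonneg_right this (sq_nonneg _)

/-- points where `g` disagrees in sign with its low degree part -/
noncomputable def badSet (k : ℕ) (g : (Fin n → Bool) → ℝ) : Finset (Fin n → Bool) :=
  Finset.univ.filter fun x => g x * low k g x ≤ 0

lemma badSet_card {g : (Fin n → Bool) → ℝ} (hg : ∀ x, g x = 1 ∨ g x = -1) (k : ℕ) :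
    (k + 1 : ℝ) * ((badSet k g).card : ℝ) ≤ 2 ^ n * avgSens g := by
  refine le_trans ?_ (low_err hg k)
  refine mul_le_mul_of_nonneg_left ?_ (by positivity)
  rw [badSet, Finset.card_filter]
  push_cast
  refine Finset.sum_le_sum fun x _ => ?_
  split_ifs with h
  · rcases hg x with h' | h' <;> rw [h'] at h ⊢ <;> nlinarith
  · positivity

/-- `f` times the full parity -/
noncomputable def twist (f : (Fin n → Bool) → ℝ) : (Fin n → Bool) → ℝ :=
  fun x => f x * chi Finset.univ x

/-- main dimension argument -/
lemma dim_arg {d k : ℕ} {f P : (Fin n → Bool) → ℝ} (hf : ∀ x, f x = 1 ∨ f x = -1)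
    (hP : P ∈ LD n d) (hfP : ∀ x, 0 < f x * P x) :
    (Finset.univ.filter fun S : Finset (Fin n) => 2 * S.card + k + d < n).card
      ≤ (badSet k (twist f)).card := by
  classical
  set g : (Fin n → Bool) → ℝ := twist f with hgdef
  by_contra hlt
  push Not at hlt
  set I : Finset (Finset (Fin n)) :=
    Finset.univ.filter fun S : Finset (Fin n) => 2 * S.card + k + d < n with hI
  set B := badSet k g with hB
  -- the evaluation map
  let Φ : (I → ℝ) →ₗ[ℝ] (B → ℝ) :=
    { toFun := fun a x => ∑ S : I, a S * chi S.1 x.1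
      map_add' := by
        intro a b; funext x
        simp [add_mul, Finset.sum_add_distrib]
      map_smul' := by
        intro c a; funext x
        simp [Finset.mul_sum, mul_assoc] }
  have hker : ∃ a : I → ℝ, a ≠ 0 ∧ Φ a = 0 := by
    have hfin : Module.finrank ℝ (B → ℝ) < Module.finrank ℝ (I → ℝ) := by
      simp only [Module.finrank_fintype_fun_eq_card, Fintype.card_coe]
      exact hlt
    have := LinearMap.ker_ne_bot_of_finrank_lt (f := Φ) hfin
    obtain ⟨a, ha, ha0⟩ := Submodule.exists_mem_ne_zero_of_ne_bot this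
    exact ⟨a, ha0, by simpa using ha⟩
  obtain ⟨a, ha0, haB⟩ := hker
  let a' : Finset (Fin n) → ℝ := fun S => if h : S ∈ I then a ⟨S, h⟩ else 0
  let q : (Fin n → Bool) → ℝ := fun x => ∑ S : Finset (Fin n), a' S * chi S x
  have hq : ∀ x, q x = ∑ S : I, a S * chi S.1 x := by
    intro x
    have h1 : q x = ∑ S ∈ I, a' S * chi S x := by
      refine (Finset.sum_subset (Finset.subset_univ I) ?_).symm
      intro S _ hS
      simp [a', hS]
    rw [h1, ← Finset.sum_coe_sort]
    refine Finset.sum_congr rfl fun S _ => ?_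
    simp [a']
  have hqB : ∀ x ∈ B, q x = 0 := by
    intro x hx
    rw [hq]
    exact congrFun haB ⟨x, hx⟩
  -- I nonempty gives bounds
  obtain ⟨S0, hS0⟩ : I.Nonempty := by
    rw [Finset.nonempty_iff_ne_empty]
    intro h
    apply ha0
    funext S
    have hS := S.2
    exact absurd (Finset.ne_empty_of_mem hS) (fun hh => hh h)
  have hkd : k + d < n := by
    have := (Finset.mem_filter.mp hS0).2
    omega
  set r := (n - 1 - (k + d)) / 2 with hr
  have hqmem : q ∈ LD n r := by
    have : q = ∑ S : Finset (Fin n), a' S • chi S := by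
      funext x; simp [q, Finset.sum_apply]
    rw [this]
    refine Submodule.sum_mem _ fun S _ => ?_
    by_cases hS : S ∈ I
    · refine Submodule.smul_mem _ _ (chi_mem_LD ?_)
      have := (Finset.mem_filter.mp hS).2
      omega
    · simp [a', hS]
  have hprod : (q * q) * low k g * P ∈ LD n ((r + r) + k + d) :=
    mul_mem_LD (mul_mem_LD (mul_mem_LD hqmem hqmem) (low_mem k g)) hP
  have hsum := sum_mul_top (n := n) (D := (r + r) + k + d) (by omega) hprod
  have hterm : ∀ x, ((q * q) * low k g * P) x * chi Finset.univ x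
      = q x ^ 2 * (g x * low k g x) * (f x * P x) := by
    intro x
    have hff : f x * f x = 1 := by rcases hf x with h | h <;> rw [h] <;> norm_num
    have : g x * f x = chi Finset.univ x := by
      simp only [hgdef, twist]
      calc f x * chi Finset.univ x * f x = (f x * f x) * chi Finset.univ x := by ring
        _ = _ := by rw [hff, one_mul]
    simp only [Pi.mul_apply]
    rw [← this]; ring
  have hnn : ∀ x, 0 ≤ q x ^ 2 * (g x * low k g x) * (f x * P x) := by
    intro x
    by_cases hx : x ∈ B
    · rw [hqB x hx]; simp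
    · have : 0 < g x * low k g x := by
        by_contra hc
        exact hx (by rw [hB, badSet, Finset.mem_filter]; exact ⟨Finset.mem_univ _, not_lt.mp hc⟩)
      have := hfP x
      positivity
  simp_rw [hterm] at hsum
  have hzero := (Finset.sum_eq_zero_iff_of_nonneg (fun x _ => hnn x)).mp hsum
  have hq0 : ∀ x, q x = 0 := by
    intro x
    by_cases hx : x ∈ B
    · exact hqB x hx
    · have hpos : 0 < g x * low k g x := by
        by_contra hc
        exact hx (by rw [hB, badSet, Finset.mem_filter]; exact ⟨Finset.mem_univ _, not_lt.mp hc⟩)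
      have h0 := hzero x (Finset.mem_univ x)
      have h3 := hfP x
      have : q x ^ 2 = 0 := by
        rcases mul_eq_zero.mp h0 with h | h
        · rcases mul_eq_zero.mp h with h | h
          · exact h
          · exact absurd h hpos.ne'
        · exact absurd h h3.ne'
      exact pow_eq_zero_iff (two_ne_zero) |>.mp this
  have hpars := parseval a'
  have : ∑ S : Finset (Fin n), a' S ^ 2 = 0 := by
    have hl : ∑ x : Fin n → Bool, (∑ S : Finset (Fin n), a' S * chi S x) ^ 2 = 0 := by
      refine Finset.sum_eq_zero fun x _ => ?_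
      have := hq0 x
      simp only [q] at this
      rw [this]; simp
    rw [hl] at hpars
    have h2 : (2 : ℝ) ^ n ≠ 0 := by positivity
    exact (mul_eq_zero.mp hpars.symm).resolve_left h2
  have hall := (Finset.sum_eq_zero_iff_of_nonneg (fun S _ => sq_nonneg (a' S))).mp this
  apply ha0
  funext S
  have := hall S.1 (Finset.mem_univ _)
  have h' : a' S.1 = 0 := pow_eq_zero_iff (two_ne_zero) |>.mp this
  simpa [a'] using h'

lemma chi_univ_pm (x : Fin n → Bool) : chi Finset.univ x = 1 ∨ chi Finset.univ x = -1 :=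
  mul_self_eq_one_iff.mp (chi_mul_self Finset.univ x)

lemma mul_chi_pm {f : (Fin n → Bool) → ℝ} (hf : ∀ x, f x = 1 ∨ f x = -1) (x : Fin n → Bool) :
    twist f x = 1 ∨ twist f x = -1 := by
  simp only [twist]
  rcases hf x with h | h <;> rcases chi_univ_pm x with h' | h' <;> rw [h, h'] <;> norm_num

lemma avgSens_mul_chi {f : (Fin n → Bool) → ℝ} (hf : ∀ x, f x = 1 ∨ f x = -1) :
    avgSens (twist f) = n - avgSens f := by
  have h2 : (2 : ℝ) ^ n ≠ 0 := by positivity
  have key : ∀ i, sensCount (twist f) i = 2 ^ n - sensCount f i := by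
    intro i
    have : sensCount (twist f) i + sensCount f i = 2 ^ n := by
      rw [sensCount, sensCount, Finset.card_filter, Finset.card_filter]
      push_cast
      rw [← Finset.sum_add_distrib]
      have : ∀ x : Fin n → Bool, ((if twist f x ≠ twist f (flip i x)
          then (1:ℝ) else 0) + if f x ≠ f (flip i x) then (1:ℝ) else 0) = 1 := by
        intro x
        have hc : chi Finset.univ (flip i x) = - chi Finset.univ x := by
          rw [chi_flip]; simp
        simp only [twist, hc]
        rcases hf x with h | h <;> rcases hf (flip i x) with h' | h' <;>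
          rcases chi_univ_pm x with h'' | h'' <;> rw [h, h', h''] <;> norm_num
      rw [Finset.sum_congr rfl fun x _ => this x]
      simp
    linarith
  rw [avgSens_eq, avgSens_eq]
  simp_rw [key, sub_div]
  rw [Finset.sum_sub_distrib]
  simp [h2]

lemma card_index (n k d : ℕ) :
    ((Finset.univ.filter fun S : Finset (Fin n) => 2 * S.card + k + d < n).card)
      = ∑ i ∈ (Finset.range (n + 1)).filter (fun i => 2 * i + k + d < n), n.choose i := by
  rw [Finset.card_eq_sum_card_fiberwise (f := Finset.card)
    (t := (Finset.range (n + 1)).filter (fun i => 2 * i + k + d < n))]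
  · refine Finset.sum_congr rfl fun i hi => ?_
    have : (Finset.filter (fun S : Finset (Fin n) => S.card = i)
        (Finset.univ.filter fun S : Finset (Fin n) => 2 * S.card + k + d < n))
        = Finset.powersetCard i Finset.univ := by
      ext S
      simp only [Finset.mem_filter, Finset.mem_univ, true_and, Finset.mem_powersetCard,
        Finset.subset_univ]
      constructor
      · rintro ⟨_, h⟩; exact h
      · intro h
        refine ⟨?_, h⟩
        have := (Finset.mem_filter.mp hi).2
        omega
    rw [this, Finset.card_powersetCard, Finset.card_univ, Fintype.card_fin]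
  · intro S hS
    have h := (Finset.mem_filter.mp hS).2
    simp only [Finset.coe_filter, Finset.mem_range, Set.mem_ofPred_eq]
    exact ⟨by omega, h⟩

/-- internal notion of threshold function -/
def PT (n d : ℕ) (f : (Fin n → Bool) → ℝ) : Prop :=
  (∀ x, f x = 1 ∨ f x = -1) ∧ ∃ P ∈ LD n d, ∀ x, 0 < f x * P x

theorem PT_bound {d k : ℕ} {f : (Fin n → Bool) → ℝ} (h : PT n d f) :
    avgSens f ≤ n - (k + 1) *
      (∑ i ∈ (Finset.range (n + 1)).filter (fun i => 2 * i + k + d < n), (n.choose i : ℝ)) / 2 ^ n := by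
  obtain ⟨hf, P, hP, hfP⟩ := h
  have h1 := dim_arg (k := k) hf hP hfP
  have h2 := badSet_card (mul_chi_pm hf) k
  rw [avgSens_mul_chi hf] at h2
  rw [card_index] at h1
  have h1' : (∑ i ∈ (Finset.range (n + 1)).filter (fun i => 2 * i + k + d < n), (n.choose i : ℝ))
      ≤ ((badSet k (twist f)).card : ℝ) := by exact_mod_cast h1
  have h3 : (k + 1 : ℝ) * (∑ i ∈ (Finset.range (n + 1)).filter (fun i => 2 * i + k + d < n),
      (n.choose i : ℝ)) ≤ 2 ^ n * (n - avgSens f) :=
    (mul_le_mul_of_nonneg_left h1' (by positivity)).trans h2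
  have hpos : (0:ℝ) < 2 ^ n := by positivity
  have h4 : (k + 1 : ℝ) * (∑ i ∈ (Finset.range (n + 1)).filter (fun i => 2 * i + k + d < n),
      (n.choose i : ℝ)) / 2 ^ n ≤ n - avgSens f := by
    rw [div_le_iff₀ hpos]; linarith
  linarith

end Vale.Agent.H24.Cube
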