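import Mathlib

/-! Augmenting sequences for near-perfect matchings, coded as involutions. -/

namespace Vale.Agent.H24.Mat

variable {V : Type*} (G : SimpleGraph V)

/-- perfect matching as an involution -/
def PM (M : V → V) : Prop := (∀ x, M (M x) = x) ∧ ∀ x, G.Adj x (M x)

/-- near-perfect matching (with holes `u`, `v`) as an involution -/
structure NPM (N : V → V) (u v : V) : Prop where
  inv : ∀ x, N (N x) = x
  hu : N u = u
  hv : N v = v
  huv : u ≠ v
  adj : ∀ x, x ≠ u → x ≠ v → G.Adj x (N x)

/-- augmenting sequence with `L + 1` new edges -/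
structure Aug (N : V → V) (u v : V) (L : ℕ) (p : ℕ → V) : Prop where
  inj : ∀ a b, a ≤ 2 * L + 1 → b ≤ 2 * L + 1 → p a = p b → a = b
  h0 : p 0 = u
  hL : p (2 * L + 1) = v
  step : ∀ t, t < L → N (p (2 * t + 1)) = p (2 * t + 2)
  adj : ∀ t, t ≤ L → G.Adj (p (2 * t)) (p (2 * t + 1))

variable {G}

lemma NPM.fix {N : V → V} {u v : V} (h : NPM G N u v) {x : V} (hx : N x = x) : x = u ∨ x = v := by
  by_contra hc
  rw [not_or] at hc
  have := h.adj x hc.1 hc.2
  rw [hx] at this
  exact G.loopless.irrefl x this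

/-- the alternating sequence -/
def altSeq (M N : V → V) (u : V) : ℕ → V
  | 0 => u
  | k + 1 => if k % 2 = 0 then M (altSeq M N u k) else N (altSeq M N u k)

lemma altSeq_odd (M N : V → V) (u : V) (t : ℕ) :
    altSeq M N u (2 * t + 1) = M (altSeq M N u (2 * t)) := by
  rw [altSeq, if_pos (by omega)]

lemma altSeq_even (M N : V → V) (u : V) (t : ℕ) :
    altSeq M N u (2 * t + 2) = N (altSeq M N u (2 * t + 1)) := by
  rw [show 2 * t + 2 = (2 * t + 1) + 1 from rfl, altSeq, if_neg (by omega)]

/-- distinctness up to the first hole at an odd position -/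
lemma altSeq_distinct {M N : V → V} {u v : V} (hM : PM G M) (hN : NPM G N u v) (T : ℕ)
    (hT : ∀ t, 2 * t + 1 ≤ T → N (altSeq M N u (2 * t + 1)) ≠ altSeq M N u (2 * t + 1)) :
    ∀ l, l ≤ T + 1 → ∀ k, k < l → altSeq M N u k ≠ altSeq M N u l := by
  set p := altSeq M N u with hp
  have hodd : ∀ t, p (2 * t + 1) = M (p (2 * t)) := altSeq_odd M N u
  have heven : ∀ t, p (2 * t + 2) = N (p (2 * t + 1)) := altSeq_even M N u
  have hMne : ∀ x, M x ≠ x := fun x hx => by
    have := hM.2 x
    rw [hx] at this
    exact G.loopless.irrefl x this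
  intro l
  induction l using Nat.strong_induction_on with
  | _ l ih =>
    intro hl k hk heq
    rcases Nat.even_or_odd' l with ⟨s, rfl | rfl⟩
    · -- l even, so l = 2 s with s ≥ 1
      obtain ⟨s, rfl⟩ : ∃ s', s = s' + 1 := ⟨s - 1, by omega⟩
      have e1 : p (2 * (s + 1)) = N (p (2 * s + 1)) := heven s
      have e2 : p (2 * s + 1) = N (p (2 * (s + 1))) := by rw [e1, hN.inv]
      rcases Nat.even_or_odd' k with ⟨r, rfl | rfl⟩
      · rcases Nat.eq_zero_or_pos r with rfl | hr
        · have e3 : p (2 * s + 1) = p (2 * (s + 1)) := by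
            rw [e2, ← heq]; exact hN.hu
          refine hT s (by omega) ?_
          rw [e2, hN.inv, ← e2, e3]
        · obtain ⟨r, rfl⟩ : ∃ r', r = r' + 1 := ⟨r - 1, by omega⟩
          refine ih (2 * s + 1) (by omega) (by omega) (2 * r + 1) (by omega) ?_
          rw [e2, ← heq, show 2 * (r + 1) = 2 * r + 2 by ring, heven r, hN.inv]
      · -- k odd
        have e3 : p (2 * r + 2) = p (2 * s + 1) := by rw [heven, heq, e2]
        rcases Nat.lt_or_ge (2 * r + 2) (2 * s + 1) with h | h
        · exact ih (2 * s + 1) (by omega) (by omega) _ h e3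
        · have hrs : r = s := by omega
          subst hrs
          refine hT r (by omega) ?_
          rw [← heven r, e3]
    · -- l odd
      have e1 : p (2 * s + 1) = M (p (2 * s)) := hodd s
      have e2 : p (2 * s) = M (p (2 * s + 1)) := by rw [e1, hM.1]
      rcases Nat.even_or_odd' k with ⟨r, rfl | rfl⟩
      · have e3 : p (2 * r + 1) = p (2 * s) := by rw [hodd, heq, e2]
        rcases Nat.lt_or_ge (2 * r + 1) (2 * s) with h | h
        · exact ih (2 * s) (by omega) (by omega) _ h e3
        · have hrs : r = s := by omega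
          subst hrs
          rw [hodd] at heq
          exact hMne _ heq.symm
      · refine ih (2 * s) (by omega) (by omega) (2 * r) (by omega) ?_
        rw [e2, ← heq, hodd r, hM.1]

/-- Berge: an augmenting sequence exists. -/
theorem berge [Finite V] {M N : V → V} {u v : V} (hM : PM G M) (hN : NPM G N u v) :
    ∃ L p, Aug G N u v L p := by
  classical
  set p := altSeq M N u with hp
  have hex : ∃ t, N (p (2 * t + 1)) = p (2 * t + 1) := by
    by_contra hc
    push Not at hc
    have hinj : Function.Injective p := by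
      intro a b hab
      by_contra hne
      rcases Nat.lt_or_gt_of_ne hne with h | h
      · exact altSeq_distinct hM hN b (fun t _ => hc t) b (by omega) a h hab
      · exact altSeq_distinct hM hN a (fun t _ => hc t) a (by omega) b h hab.symm
    exact not_injective_infinite_finite p hinj
  let L := Nat.find hex
  have hL : N (p (2 * L + 1)) = p (2 * L + 1) := Nat.find_spec hex
  have hmin : ∀ t, t < L → N (p (2 * t + 1)) ≠ p (2 * t + 1) := fun t ht => Nat.find_min hex ht
  have hdist := altSeq_distinct hM hN (2 * L) (fun t ht => hmin t (by omega))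
  refine ⟨L, p, ?_, rfl, ?_, fun t _ => (altSeq_even M N u t).symm, ?_⟩
  · intro a b ha hb hab
    by_contra hne
    rcases Nat.lt_or_gt_of_ne hne with h | h
    · exact hdist b (by omega) a h hab
    · exact hdist a (by omega) b h hab.symm
  · rcases hN.fix hL with h | h
    · exfalso
      exact hdist (2 * L + 1) (by omega) 0 (by omega) h.symm
    · exact h
  · intro t _
    rw [hp, altSeq_odd]
    exact hM.2 _

/-- Reindexing an augmenting sequence. -/
lemma Aug.reindex {N : V → V} {u v : V} {L : ℕ} {p : ℕ → V} (hN : NPM G N u v) (h : Aug G N u v L p)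
    (L' : ℕ) (π : ℕ → ℕ) (hle : ∀ x, x ≤ 2 * L' + 1 → π x ≤ 2 * L + 1)
    (hinj : ∀ x y, x ≤ 2 * L' + 1 → y ≤ 2 * L' + 1 → π x = π y → x = y)
    (h0 : π 0 = 0) (h1 : π (2 * L' + 1) = 2 * L + 1)
    (hstep : ∀ t, t < L' → (∃ r, r < L ∧ π (2 * t + 1) = 2 * r + 1 ∧ π (2 * t + 2) = 2 * r + 2) ∨
      (∃ r, r < L ∧ π (2 * t + 1) = 2 * r + 2 ∧ π (2 * t + 2) = 2 * r + 1))
    (hadj : ∀ t, t ≤ L' → G.Adj (p (π (2 * t))) (p (π (2 * t + 1)))) :
    Aug G N u v L' (fun x => p (π x)) where
  inj a b ha hb hab := hinj a b ha hb (h.inj _ _ (hle a ha) (hle b hb) hab)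
  h0 := by simp only [h0, h.h0]
  hL := by simp only [h1, h.hL]
  step t ht := by
    rcases hstep t ht with ⟨r, hr, e1, e2⟩ | ⟨r, hr, e1, e2⟩
    · simp only [e1, e2]; exact h.step r hr
    · simp only [e1, e2]; rw [← h.step r hr, hN.inv]
  adj := hadj

/-- Crossing chords give a shorter sequence. -/
lemma Aug.cross {N : V → V} {u v : V} {L : ℕ} {p : ℕ → V} (hN : NPM G N u v) (h : Aug G N u v L p)
    {i s j : ℕ} (his : i < s) (hsj : s < j) (hjL : j ≤ L) (hE : G.Adj (p (2 * i)) (p (2 * j)))
    (hO : G.Adj (p (2 * s + 1)) (p (2 * j + 1))) :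
    ∃ L' p', L' < L ∧ Aug G N u v L' p' := by
  refine ⟨L - (s - i), _, by omega, h.reindex hN (L - (s - i))
    (fun x => if x ≤ 2 * i then x else if x ≤ 2 * i + 2 * j - 2 * s then 2 * j + 2 * i + 1 - x
      else x + 2 * (s - i)) ?_ ?_ ?_ ?_ ?_ ?_⟩
  · intro x hx
    split_ifs <;> omega
  · intro x y hx hy
    split_ifs <;> omega
  · simp
  · split_ifs <;> omega
  · intro t ht
    by_cases h1 : t < i
    · left; exact ⟨t, by omega, by split_ifs <;> omega, by split_ifs <;> omega⟩
    · by_cases h2 : 2 * t + 2 ≤ 2 * i + 2 * j - 2 * s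
      · right
        exact ⟨j + i - t - 1, by omega, by split_ifs <;> omega, by split_ifs <;> omega⟩
      · left
        exact ⟨t + (s - i), by omega, by split_ifs <;> omega, by split_ifs <;> omega⟩
  · intro t ht
    by_cases h1 : t < i
    · rw [if_pos (by omega), if_pos (by omega)]
      exact h.adj t (by omega)
    by_cases h2 : t = i
    · subst h2
      rw [if_pos (by omega), if_neg (by omega), if_pos (by omega),
        show 2 * j + 2 * t + 1 - (2 * t + 1) = 2 * j by omega]
      exact hE
    by_cases h3 : t < i + j - s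
    · rw [if_neg (by omega), if_pos (by omega), if_neg (by omega), if_pos (by omega)]
      have := h.adj (j + i - t) (by omega)
      rw [show 2 * j + 2 * i + 1 - 2 * t = 2 * (j + i - t) + 1 by omega,
        show 2 * j + 2 * i + 1 - (2 * t + 1) = 2 * (j + i - t) by omega]
      exact this.symm
    by_cases h4 : t = i + j - s
    · rw [if_neg (by omega), if_pos (by omega), if_neg (by omega), if_neg (by omega),
        show 2 * j + 2 * i + 1 - 2 * t = 2 * s + 1 by omega,
        show 2 * t + 1 + 2 * (s - i) = 2 * j + 1 by omega]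
      exact hO
    · rw [if_neg (by omega), if_neg (by omega), if_neg (by omega), if_neg (by omega),
        show 2 * t + 2 * (s - i) = 2 * (t + (s - i)) by ring,
        show 2 * t + 1 + 2 * (s - i) = 2 * (t + (s - i)) + 1 by ring]
      exact h.adj _ (by omega)

/-- the threshold sequence -/
def Kf (a : ℕ) : ℕ → ℕ
  | 0 => 0
  | r + 1 => a * (Kf a r + 1) + 1

lemma Kf_le (a r : ℕ) : Kf a r + 1 ≤ (a + 2) ^ r := by
  induction r with
  | zero => simp [Kf]
  | succ r ih =>
    rw [Kf, pow_succ]
    have h1 : 1 ≤ (a + 2) ^ r := Nat.one_le_pow _ _ (by omega)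
    nlinarith

/-- Long shortest augmenting sequences force large independent sets. -/
lemma indep_of_long [Fintype V] [DecidableEq V] {N : V → V} {u v : V} {L : ℕ} {p : ℕ → V}
    (hN : NPM G N u v) (h : Aug G N u v L p)
    (hmin : ∀ L' p', Aug G N u v L' p' → L ≤ L') {a : ℕ}
    (ha : ∀ S : Finset V, G.IsIndepSet (S : Set V) → S.card ≤ a) (r : ℕ) :
    ∀ x y, x + Kf a r ≤ y → y ≤ L + 1 → ∃ S : Finset V, (∀ w ∈ S, ∃ t, x ≤ t ∧ t < y ∧ w = p (2 * t + 1)) ∧
      S.card = r ∧ G.IsIndepSet (S : Set V) := by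
  induction r with
  | zero =>
    intro x y _ _
    exact ⟨∅, by simp, rfl, by simp [SimpleGraph.IsIndepSet]⟩
  | succ r ih =>
    intro x y hxy hy
    rw [Kf] at hxy
    set K := Kf a r with hK
    -- the test set of even vertices
    have hbound : ∀ c, c ≤ a → x + c * (K + 1) ≤ L := by
      intro c hc
      have : c * (K + 1) ≤ a * (K + 1) := Nat.mul_le_mul_right _ hc
      omega
    let T : Finset V := (Finset.range (a + 1)).image fun c => p (2 * (x + c * (K + 1)))
    have hTinj : Set.InjOn (fun c => p (2 * (x + c * (K + 1)))) (Finset.range (a + 1) : Set ℕ) := by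
      intro c hc c' hc' heq
      simp only [Finset.coe_range, Set.mem_Iio] at hc hc'
      have h1 := hbound c (by omega)
      have h2 := hbound c' (by omega)
      have := h.inj _ _ (by omega) (by omega) heq
      have h3 : c * (K + 1) = c' * (K + 1) := by omega
      exact Nat.eq_of_mul_eq_mul_right (by omega) h3
    have hTcard : T.card = a + 1 := by
      rw [Finset.card_image_of_injOn hTinj, Finset.card_range]
    have hTn : ¬ G.IsIndepSet (T : Set V) := by
      intro hI
      have := ha T hI
      omega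
    obtain ⟨i, j, hij, hiK, hjy, hix, hadj⟩ : ∃ i j, i < j ∧ i + (K + 1) ≤ j ∧ j < y ∧ x ≤ i ∧
        G.Adj (p (2 * i)) (p (2 * j)) := by
      rw [SimpleGraph.IsIndepSet, Set.Pairwise] at hTn
      push Not at hTn
      obtain ⟨w, hw, w', hw', hne, hww⟩ := hTn
      simp only [T, Finset.coe_image, Finset.coe_range, Set.mem_image, Set.mem_Iio] at hw hw'
      obtain ⟨c, hc, rfl⟩ := hw
      obtain ⟨c', hc', rfl⟩ := hw'
      have hcc : c ≠ c' := fun h => hne (by rw [h])
      have hba : ∀ c, c < a + 1 → x + c * (K + 1) < y := by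
        intro c hc
        have : c * (K + 1) ≤ a * (K + 1) := Nat.mul_le_mul_right _ (by omega)
        omega
      rcases Nat.lt_or_gt_of_ne hcc with hlt | hlt
      · have h1 : (c + 1) * (K + 1) ≤ c' * (K + 1) := Nat.mul_le_mul_right _ hlt
        have h2 : (c + 1) * (K + 1) = c * (K + 1) + (K + 1) := by ring
        exact ⟨x + c * (K + 1), x + c' * (K + 1), by omega, by omega, hba c' hc', by omega, hww⟩
      · have h1 : (c' + 1) * (K + 1) ≤ c * (K + 1) := Nat.mul_le_mul_right _ hlt
        have h2 : (c' + 1) * (K + 1) = c' * (K + 1) + (K + 1) := by ring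
        exact ⟨x + c' * (K + 1), x + c * (K + 1), by omega, by omega, hba c hc, by omega, hww.symm⟩
    obtain ⟨S, hS, hScard, hSI⟩ := ih (i + 1) j (by omega) (by omega)
    have hjS : p (2 * j + 1) ∉ S := by
      intro hmem
      obtain ⟨t, ht1, ht2, ht3⟩ := hS _ hmem
      have := h.inj _ _ (by omega) (by omega) ht3
      omega
    refine ⟨insert (p (2 * j + 1)) S, ?_, ?_, ?_⟩
    · intro w hw
      rw [Finset.mem_insert] at hw
      rcases hw with rfl | hw
      · exact ⟨j, by omega, hjy, rfl⟩
      · obtain ⟨t, ht1, ht2, ht3⟩ := hS _ hw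
        exact ⟨t, by omega, by omega, ht3⟩
    · rw [Finset.card_insert_of_notMem hjS, hScard]
    · have hno : ∀ w ∈ S, ¬ G.Adj w (p (2 * j + 1)) := by
        intro w hw hadj'
        obtain ⟨t, ht1, ht2, ht3⟩ := hS _ hw
        rw [ht3] at hadj'
        obtain ⟨L', p', hlt, hA⟩ := h.cross hN (i := i) (s := t) (j := j) (by omega) ht2 (by omega) hadj hadj'
        have := hmin L' p' hA
        omega
      rw [Finset.coe_insert]
      intro w hw w' hw' hne
      rw [Set.mem_insert_iff] at hw hw'
      rcases hw with rfl | hw <;> rcases hw' with rfl | hw'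
      · exact absurd rfl hne
      · exact fun hA => hno _ hw' hA.symm
      · exact hno _ hw
      · exact hSI hw hw' hne

end Vale.Agent.H24.Mat
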