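import Vale.Agent.H24.MatchCore

namespace Vale.Agent.H24.Mat

variable {V : Type*} {G : SimpleGraph V}

/-- In a shortest augmenting sequence with `L ≥ 2` the degrees of the holes are small. -/
lemma ore_bound [Fintype V] [DecidableEq V] [DecidableRel G.Adj] {N : V → V} {u v : V} {L : ℕ}
    {p : ℕ → V} (hN : NPM G N u v) (h : Aug G N u v L p)
    (hmin : ∀ L' p', Aug G N u v L' p' → L ≤ L') (hL : 2 ≤ L) :
    G.degree u + G.degree v + L ≤ Fintype.card V := by
  have hNinj : Function.Injective N := fun x y hxy => by rw [← hN.inv x, hxy, hN.inv]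
  -- no direct edge between the holes
  have huv : ¬ G.Adj u v := by
    intro hadj
    have : Aug G N u v 0 (fun x => if x = 0 then u else v) := by
      refine ⟨?_, by simp, by simp, by intro t ht; omega, ?_⟩
      · intro a b ha hb hab
        by_cases h1 : a = 0 <;> by_cases h2 : b = 0
        · omega
        · rw [if_pos h1, if_neg h2] at hab; exact absurd hab hN.huv
        · rw [if_neg h1, if_pos h2] at hab; exact absurd hab.symm hN.huv
        · omega
      · intro t ht
        have : t = 0 := by omega
        subst this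
        simpa using hadj
    have := hmin _ _ this
    omega
  -- no augmenting sequence of length three
  have h3 : ∀ x y, G.Adj u x → N y = x → ¬ G.Adj v y := by
    intro x y hux hyx hvy
    have hxu : x ≠ u := fun h => G.loopless.irrefl u (h ▸ hux)
    have hyv : y ≠ v := fun h => G.loopless.irrefl v (h ▸ hvy)
    have hxv : x ≠ v := fun h => huv (h ▸ hux)
    have hyu : y ≠ u := fun h => huv (h ▸ hvy).symm
    have hxy : x ≠ y := by
      intro hxy
      rw [← hxy] at hyx
      rcases hN.fix hyx with h | h
      · exact hxu h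
      · exact hxv h
    have hNx : N x = y := by rw [← hyx, hN.inv]
    have : Aug G N u v 1 (fun a => if a = 0 then u else if a = 1 then x else if a = 2 then y else v) := by
      refine ⟨?_, by simp, by simp, ?_, ?_⟩
      · intro a b ha hb hab
        have huv' := hN.huv
        split_ifs at hab <;> first | omega | (exfalso; simp_all)
      · intro t ht
        have : t = 0 := by omega
        subst this
        simpa using hNx
      · intro t ht
        have : t = 0 ∨ t = 1 := by omega
        rcases this with rfl | rfl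
        · simpa using hux
        · simpa using hvy.symm
    have := hmin _ _ this
    omega
  -- chords from the ends into the sequence
  have hA : ∀ t, 1 ≤ t → t < L → ¬ G.Adj u (p (2 * t + 1)) := by
    intro t ht1 ht2 hadj
    have := hmin (L - t) _ (h.reindex hN (L - t) (fun x => if x = 0 then 0 else x + 2 * t) ?_ ?_ ?_ ?_ ?_ ?_)
    · omega
    · intro x hx; split_ifs <;> omega
    · intro x y hx hy; split_ifs <;> omega
    · simp
    · split_ifs <;> omega
    · intro s hs
      left
      exact ⟨s + t, by omega, by split_ifs <;> omega, by split_ifs <;> omega⟩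
    · intro s hs
      by_cases hs0 : s = 0
      · subst hs0
        rw [if_pos (by omega), if_neg (by omega), h.h0, show 2 * 0 + 1 + 2 * t = 2 * t + 1 by omega]
        exact hadj
      · rw [if_neg (by omega), if_neg (by omega), show 2 * s + 2 * t = 2 * (s + t) by ring,
          show 2 * s + 1 + 2 * t = 2 * (s + t) + 1 by ring]
        exact h.adj _ (by omega)
  have hB : ∀ t, t < L → ¬ G.Adj v (p (2 * t)) := by
    intro t ht hadj
    have := hmin t _ (h.reindex hN t (fun x => if x ≤ 2 * t then x else 2 * L + 1) ?_ ?_ ?_ ?_ ?_ ?_)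
    · omega
    · intro x hx; split_ifs <;> omega
    · intro x y hx hy; split_ifs <;> omega
    · simp
    · rw [if_neg (by omega)]
    · intro s hs
      left
      exact ⟨s, by omega, by split_ifs <;> omega, by split_ifs <;> omega⟩
    · intro s hs
      by_cases hs0 : s = t
      · subst hs0
        rw [if_pos le_rfl, if_neg (by omega), h.hL]
        exact hadj.symm
      · rw [if_pos (by omega), if_pos (by omega)]
        exact h.adj _ (by omega)
  -- the four disjoint sets
  set A := G.neighborFinset u with hAdef
  set B := (G.neighborFinset v).image N with hBdef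
  set C := (Finset.Ico 1 (L - 1)).image (fun t => p (2 * t + 1)) with hCdef
  set D : Finset V := {u, v} with hDdef
  have cA : A.card = G.degree u := rfl
  have cB : B.card = G.degree v := by rw [hBdef, Finset.card_image_of_injective _ hNinj]; rfl
  have cC : C.card = L - 2 := by
    rw [hCdef, Finset.card_image_of_injOn, Nat.card_Ico]
    · omega
    · intro s hs t ht hst
      simp only [Finset.coe_Ico, Set.mem_Ico] at hs ht
      have := h.inj _ _ (by omega) (by omega) hst
      omega
  have cD : D.card = 2 := Finset.card_pair hN.huv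
  have dAB : Disjoint A B := by
    rw [Finset.disjoint_left]
    intro x hx hx'
    rw [hBdef, Finset.mem_image] at hx'
    obtain ⟨y, hy, hyx⟩ := hx'
    rw [SimpleGraph.mem_neighborFinset] at hy
    rw [hAdef, SimpleGraph.mem_neighborFinset] at hx
    exact h3 x y hx hyx hy
  have dABC : Disjoint (A ∪ B) C := by
    rw [Finset.disjoint_right]
    intro x hx hx'
    rw [hCdef, Finset.mem_image] at hx
    obtain ⟨t, ht, rfl⟩ := hx
    rw [Finset.mem_Ico] at ht
    rw [Finset.mem_union] at hx'
    rcases hx' with hx' | hx'
    · rw [hAdef, SimpleGraph.mem_neighborFinset] at hx'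
      exact hA t ht.1 (by omega) hx'
    · rw [hBdef, Finset.mem_image] at hx'
      obtain ⟨y, hy, hyx⟩ := hx'
      rw [SimpleGraph.mem_neighborFinset] at hy
      have : y = p (2 * (t + 1)) := by
        rw [show 2 * (t + 1) = 2 * t + 2 by ring, ← h.step t (by omega), ← hyx, hN.inv]
      rw [this] at hy
      exact hB (t + 1) (by omega) hy
  have dABCD : Disjoint (A ∪ B ∪ C) D := by
    rw [Finset.disjoint_right]
    intro x hx hx'
    rw [hDdef, Finset.mem_insert, Finset.mem_singleton] at hx
    rw [Finset.mem_union, Finset.mem_union] at hx'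
    rcases hx' with (hx' | hx') | hx'
    · rw [hAdef, SimpleGraph.mem_neighborFinset] at hx'
      rcases hx with rfl | rfl
      · exact G.loopless.irrefl _ hx'
      · exact huv hx'
    · rw [hBdef, Finset.mem_image] at hx'
      obtain ⟨y, hy, hyx⟩ := hx'
      rw [SimpleGraph.mem_neighborFinset] at hy
      rcases hx with rfl | rfl
      · have : y = x := by rw [← hN.inv y, hyx, hN.hu]
        rw [this] at hy
        exact huv hy.symm
      · have : y = x := by rw [← hN.inv y, hyx, hN.hv]
        rw [this] at hy
        exact G.loopless.irrefl _ hy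
    · rw [hCdef, Finset.mem_image] at hx'
      obtain ⟨t, ht, hx'⟩ := hx'
      rw [Finset.mem_Ico] at ht
      rcases hx with rfl | rfl
      · rw [← h.h0] at hx'
        have := h.inj _ _ (by omega) (by omega) hx'
        omega
      · rw [← h.hL] at hx'
        have := h.inj _ _ (by omega) (by omega) hx'
        omega
  have hcard := Finset.card_le_univ (A ∪ B ∪ C ∪ D)
  rw [Finset.card_union_of_disjoint dABCD, Finset.card_union_of_disjoint dABC,
    Finset.card_union_of_disjoint dAB, cA, cB, cC, cD] at hcard
  omega

/-- The perfect matching obtained from an augmenting sequence. -/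
lemma Aug.toPM {N : V → V} {u v : V} {L : ℕ} {p : ℕ → V} (hN : NPM G N u v)
    (h : Aug G N u v L p) : ∃ M : V → V, PM G M ∧ (∀ t, t ≤ L → M (p (2 * t)) = p (2 * t + 1)) ∧
      (∀ x, (∀ a, a ≤ 2 * L + 1 → x ≠ p a) → M x = N x) := by
  classical
  let fl : ℕ → ℕ := fun a => if a % 2 = 0 then a + 1 else a - 1
  have hfl1 : ∀ a, a ≤ 2 * L + 1 → fl a ≤ 2 * L + 1 := by
    intro a ha; simp only [fl]; split_ifs <;> omega
  have hfl2 : ∀ a, fl (fl a) = a := by
    intro a; simp only [fl]; split_ifs <;> omega
  let M : V → V := fun x => if hx : ∃ a, a ≤ 2 * L + 1 ∧ x = p a then p (fl hx.choose) else N x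
  have hMp : ∀ a, a ≤ 2 * L + 1 → M (p a) = p (fl a) := by
    intro a ha
    have hx : ∃ b, b ≤ 2 * L + 1 ∧ p a = p b := ⟨a, ha, rfl⟩
    have hM : M (p a) = p (fl hx.choose) := dif_pos hx
    have hc := hx.choose_spec
    have : hx.choose = a := (h.inj _ _ ha hc.1 hc.2).symm
    rw [hM, this]
  have hMo : ∀ x, (∀ a, a ≤ 2 * L + 1 → x ≠ p a) → M x = N x := by
    intro x hx
    exact dif_neg (fun ⟨a, ha, hxa⟩ => hx a ha hxa)
  have hNpath : ∀ a, a ≤ 2 * L + 1 → ∃ b, b ≤ 2 * L + 1 ∧ N (p a) = p b := by
    intro a ha
    rcases Nat.even_or_odd' a with ⟨t, rfl | rfl⟩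
    · rcases Nat.eq_zero_or_pos t with rfl | ht
      · exact ⟨0, by omega, by rw [Nat.mul_zero, h.h0, hN.hu]⟩
      · obtain ⟨t, rfl⟩ : ∃ t', t = t' + 1 := ⟨t - 1, by omega⟩
        refine ⟨2 * t + 1, by omega, ?_⟩
        rw [show 2 * (t + 1) = 2 * t + 2 by ring, ← h.step t (by omega), hN.inv]
    · by_cases ht : t < L
      · exact ⟨2 * t + 2, by omega, h.step t ht⟩
      · have : t = L := by omega
        subst this
        exact ⟨2 * t + 1, le_rfl, by rw [h.hL, hN.hv]⟩
  refine ⟨M, ⟨?_, ?_⟩, ?_, hMo⟩
  · intro x
    by_cases hx : ∃ a, a ≤ 2 * L + 1 ∧ x = p a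
    · obtain ⟨a, ha, rfl⟩ := hx
      rw [hMp a ha, hMp _ (hfl1 a ha), hfl2]
    · push Not at hx
      rw [hMo x hx, hMo, hN.inv]
      intro a ha hNx
      obtain ⟨b, hb, hb'⟩ := hNpath a ha
      rw [← hNx, hN.inv] at hb'
      exact hx b hb hb'
  · intro x
    by_cases hx : ∃ a, a ≤ 2 * L + 1 ∧ x = p a
    · obtain ⟨a, ha, rfl⟩ := hx
      rw [hMp a ha]
      rcases Nat.even_or_odd' a with ⟨t, rfl | rfl⟩
      · have : fl (2 * t) = 2 * t + 1 := by simp [fl]
        rw [this]; exact h.adj t (by omega)
      · have : fl (2 * t + 1) = 2 * t := by simp [fl]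
        rw [this]; exact (h.adj t (by omega)).symm
    · push Not at hx
      rw [hMo x hx]
      refine hN.adj x ?_ ?_
      · rw [← h.h0]; exact hx 0 (by omega)
      · rw [← h.hL]; exact hx _ le_rfl
  · intro t ht
    rw [hMp _ (by omega)]
    congr 1
    simp [fl]

end Vale.Agent.H24.Mat
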