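import Mathlib

/-! Numbers of perfect and of near-perfect matchings of a graph. -/

namespace Vale.Agent.H24.Mat

/-- The number of perfect matchings of `G` (a matching is a subgraph in which every vertex has
exactly one neighbour). -/
noncomputable def numPerfect {V : Type*} (G : SimpleGraph V) : ℕ :=
  Nat.card {M : G.Subgraph // M.IsPerfectMatching}

/-- The number of matchings of `G` that leave exactly two vertices uncovered. -/
noncomputable def numNearPerfect {V : Type*} (G : SimpleGraph V) : ℕ :=
  Nat.card {M : G.Subgraph // M.IsMatching ∧ (M.verts)ᶜ.ncard = 2}

end Vale.Agent.H24.Mat
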