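import Vale.Agent.H24.MatchCount
import Vale.Agent.H24.MatchDefs

namespace Vale.Agent.H24.Mat

variable {V : Type*} {G : SimpleGraph V}

/-- Counting: bounded augmenting sequences bound the number of near-perfect matchings. -/
theorem count_bound [Fintype V] (F : ℕ)
    (hF : ∀ N u v, NPM G N u v → ∃ L p, Aug G N u v L p ∧ L < F) :
    Nat.card {N : V → V // ∃ u v, NPM G N u v}
      ≤ F * Fintype.card V ^ F * Nat.card {M : V → V // PM G M} := by
  classical
  have hch : ∀ N : {N : V → V // ∃ u v, NPM G N u v}, ∃ (M : {M : V → V // PM G M}) (L : Fin F)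
      (p : ℕ → V) (u v : V), NPM G N.1 u v ∧ Aug G N.1 u v L.1 p ∧
      (∀ t, t ≤ L.1 → M.1 (p (2 * t)) = p (2 * t + 1)) ∧
      (∀ x, (∀ a, a ≤ 2 * L.1 + 1 → x ≠ p a) → M.1 x = N.1 x) := by
    rintro ⟨N, u, v, hN⟩
    obtain ⟨L, p, hA, hlt⟩ := hF N u v hN
    obtain ⟨M, hM, h1, h2⟩ := hA.toPM hN
    exact ⟨⟨M, hM⟩, ⟨L, hlt⟩, p, u, v, hN, hA, h1, h2⟩
  choose M L p u v hN hA h1 h2 using hch
  let Φ : {N : V → V // ∃ u v, NPM G N u v} → {M : V → V // PM G M} × Fin F × (Fin F → V) :=
    fun N => (M N, L N, fun i => p N (2 * i.val))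
  have hΦ : Function.Injective Φ := by
    intro N N' heq
    simp only [Φ, Prod.mk.injEq] at heq
    obtain ⟨eM, eL, ep⟩ := heq
    have eE : ∀ t, t ≤ (L N).1 → p N (2 * t) = p N' (2 * t) := by
      intro t ht
      exact congrFun ep ⟨t, by have := (L N).2; omega⟩
    have eL' : (L N').1 = (L N).1 := by rw [eL]
    have eO : ∀ t, t ≤ (L N).1 → p N (2 * t + 1) = p N' (2 * t + 1) := by
      intro t ht
      rw [← h1 N t ht, ← h1 N' t (by omega), eM, eE t ht]
    have eall : ∀ a, a ≤ 2 * (L N).1 + 1 → p N a = p N' a := by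
      intro a ha
      rcases Nat.even_or_odd' a with ⟨t, rfl | rfl⟩
      · exact eE t (by omega)
      · exact eO t (by omega)
    apply Subtype.ext
    funext x
    by_cases hx : ∃ a, a ≤ 2 * (L N).1 + 1 ∧ x = p N a
    · obtain ⟨a, ha, rfl⟩ := hx
      rcases Nat.even_or_odd' a with ⟨t, rfl | rfl⟩
      · rcases Nat.eq_zero_or_pos t with rfl | ht
        · have e1 : N.1 (p N (2 * 0)) = p N (2 * 0) := by
            rw [Nat.mul_zero, (hA N).h0]; exact (hN N).hu
          have e2 : N'.1 (p N' (2 * 0)) = p N' (2 * 0) := by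
            rw [Nat.mul_zero, (hA N').h0]; exact (hN N').hu
          rw [e1, eall _ (by omega), e2]
        · obtain ⟨t, rfl⟩ : ∃ t', t = t' + 1 := ⟨t - 1, by omega⟩
          have e1 : N.1 (p N (2 * (t + 1))) = p N (2 * t + 1) := by
            rw [show 2 * (t + 1) = 2 * t + 2 by ring, ← (hA N).step t (by omega), (hN N).inv]
          have e2 : N'.1 (p N' (2 * (t + 1))) = p N' (2 * t + 1) := by
            rw [show 2 * (t + 1) = 2 * t + 2 by ring, ← (hA N').step t (by omega), (hN N').inv]
          rw [e1, eall _ (by omega), eall _ (by omega), e2]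
      · by_cases ht : t < (L N).1
        · have e1 := (hA N).step t ht
          have e2 := (hA N').step t (by omega)
          rw [e1, eall _ (by omega), eall _ (by omega), e2]
        · have htL : t = (L N).1 := by omega
          have e1 : N.1 (p N (2 * t + 1)) = p N (2 * t + 1) := by
            rw [htL, (hA N).hL]; exact (hN N).hv
          have e2 : N'.1 (p N' (2 * t + 1)) = p N' (2 * t + 1) := by
            rw [htL, ← eL', (hA N').hL]; exact (hN N').hv
          rw [e1, eall _ (by omega), e2]
    · push Not at hx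
      rw [← h2 N x hx, ← h2 N' x, eM]
      intro a ha
      rw [← eall a (by omega)]
      exact hx a (by omega)
  have := Nat.card_le_card_of_injective Φ hΦ
  rw [Nat.card_prod, Nat.card_prod, Nat.card_fun, Nat.card_fin, Nat.card_eq_fintype_card (α := V)] at this
  calc _ ≤ _ := this
    _ = _ := by ring

/-! From subgraphs to involutions -/

lemma exists_inv {M : G.Subgraph} (h : M.IsMatching) : ∃ f : V → V,
    (∀ x ∈ M.verts, M.Adj x (f x)) ∧ (∀ x, x ∉ M.verts → f x = x) := by
  classical
  refine ⟨fun x => if hx : x ∈ M.verts then (h hx).choose else x, ?_, ?_⟩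
  · intro x hx
    simp only [dif_pos hx]
    exact (h hx).choose_spec.1
  · intro x hx
    simp only [dif_neg hx]

lemma inv_unique {M : G.Subgraph} (h : M.IsMatching) {f : V → V}
    (h1 : ∀ x ∈ M.verts, M.Adj x (f x)) {x y : V} (hxy : M.Adj x y) : y = f x := by
  have hx := M.edge_vert hxy
  exact (h hx).unique hxy (h1 x hx)

lemma inv_inv {M : G.Subgraph} (h : M.IsMatching) {f : V → V}
    (h1 : ∀ x ∈ M.verts, M.Adj x (f x)) (h2 : ∀ x, x ∉ M.verts → f x = x) (x : V) : f (f x) = x := by
  by_cases hx : x ∈ M.verts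
  · exact (inv_unique h h1 (h1 x hx).symm).symm
  · rw [h2 x hx, h2 x hx]

lemma near_le [Finite V] : numNearPerfect G ≤ Nat.card {N : V → V // ∃ u v, NPM G N u v} := by
  have hch : ∀ M : {M : G.Subgraph // M.IsMatching ∧ (M.verts)ᶜ.ncard = 2}, ∃ f : V → V,
    (∀ x ∈ M.1.verts, M.1.Adj x (f x)) ∧ (∀ x, x ∉ M.1.verts → f x = x) :=
    fun M => exists_inv M.2.1
  choose f hf1 hf2 using hch
  refine Nat.card_le_card_of_injective (fun M => ⟨f M, ?_⟩) ?_
  · obtain ⟨u, v, huv, hset⟩ := Set.ncard_eq_two.mp M.2.2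
    have hu : u ∉ M.1.verts := by
      have : u ∈ (M.1.verts)ᶜ := by rw [hset]; simp
      exact this
    have hv : v ∉ M.1.verts := by
      have : v ∈ (M.1.verts)ᶜ := by rw [hset]; simp
      exact this
    refine ⟨u, v, inv_inv M.2.1 (hf1 M) (hf2 M), hf2 M u hu, hf2 M v hv, huv, ?_⟩
    intro x hxu hxv
    have hx : x ∈ M.1.verts := by
      by_contra hc
      have : x ∈ (M.1.verts)ᶜ := hc
      rw [hset] at this
      simp only [Set.mem_insert_iff, Set.mem_singleton_iff] at this
      tauto
    exact M.1.adj_sub (hf1 M x hx)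
  · intro M M' heq
    simp only [Subtype.mk.injEq] at heq
    have key : ∀ (M : {M : G.Subgraph // M.IsMatching ∧ (M.verts)ᶜ.ncard = 2}) x y,
        M.1.Adj x y ↔ f M x = y ∧ x ≠ y := by
      intro M x y
      constructor
      · intro h
        exact ⟨(inv_unique M.2.1 (hf1 M) h).symm, M.1.adj_sub h |>.ne⟩
      · rintro ⟨rfl, hne⟩
        have hx : x ∈ M.1.verts := by
          by_contra hc
          exact hne (hf2 M x hc).symm
        exact hf1 M x hx
    have keyv : ∀ (M : {M : G.Subgraph // M.IsMatching ∧ (M.verts)ᶜ.ncard = 2}) x,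
        x ∈ M.1.verts ↔ f M x ≠ x := by
      intro M x
      constructor
      · intro hx h
        have := M.1.adj_sub (hf1 M x hx)
        rw [h] at this
        exact G.loopless.irrefl x this
      · intro h
        by_contra hc
        exact h (hf2 M x hc)
    apply Subtype.ext
    apply SimpleGraph.Subgraph.ext
    · ext x
      rw [keyv, keyv, heq]
    · funext x y
      rw [eq_iff_iff, key, key, heq]

lemma perf_ge [Finite V] : Nat.card {M : V → V // PM G M} ≤ numPerfect G := by
  refine Nat.card_le_card_of_injective (fun M => ⟨{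
      verts := Set.univ
      Adj := fun x y => M.1 x = y
      adj_sub := fun {x y} h => by rw [← h]; exact M.2.2 x
      edge_vert := fun _ => Set.mem_univ _
      symm := ⟨fun x y h => by rw [← h]; exact M.2.1 x⟩ }, ?_, ?_⟩) ?_
  · intro x _
    exact ⟨M.1 x, rfl, fun y hy => (show M.1 x = y from hy).symm⟩
  · intro x
    exact Set.mem_univ x
  · intro M M' heq
    have h := congrArg (fun S : {M : G.Subgraph // M.IsPerfectMatching} => S.1.Adj) heq
    apply Subtype.ext
    funext x
    have h3 : (M.1 x = M'.1 x) = (M'.1 x = M'.1 x) := congrFun (congrFun h x) (M'.1 x)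
    rw [h3]

lemma exists_PM {M : G.Subgraph} (h : M.IsPerfectMatching) : ∃ f : V → V, PM G f := by
  obtain ⟨f, h1, h2⟩ := exists_inv h.1
  exact ⟨f, inv_inv h.1 h1 h2, fun x => M.adj_sub (h1 x (h.2 x))⟩

/-- general form -/
theorem ratio_bound [Fintype V] (F : ℕ) (hZ : 0 < numPerfect G)
    (hF : ∀ N u v L p, NPM G N u v → Aug G N u v L p →
      (∀ L' p', Aug G N u v L' p' → L ≤ L') → L < F) :
    numNearPerfect G ≤ F * Fintype.card V ^ F * numPerfect G := by
  classical
  obtain ⟨f, hf⟩ : ∃ f : V → V, PM G f := by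
    rw [numPerfect] at hZ
    obtain ⟨⟨M, hM⟩⟩ := (Nat.card_pos_iff.mp hZ).1
    exact exists_PM hM
  have h1 : ∀ N u v, NPM G N u v → ∃ L p, Aug G N u v L p ∧ L < F := by
    intro N u v hN
    have hex : ∃ L, ∃ p, Aug G N u v L p := berge hf hN
    obtain ⟨p, hp⟩ := Nat.find_spec hex
    exact ⟨Nat.find hex, p, hp, hF N u v _ p hN hp fun L' p' h' => Nat.find_min' hex ⟨p', h'⟩⟩
  calc numNearPerfect G ≤ _ := near_le
    _ ≤ _ := count_bound F h1
    _ ≤ _ := Nat.mul_le_mul_left _ perf_ge

/-- graphs with bounded independence number -/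
theorem ratio_indep [Fintype V] (a : ℕ) (ha : ∀ S : Finset V, G.IsIndepSet (S : Set V) → S.card ≤ a)
    (hZ : 0 < numPerfect G) :
    numNearPerfect G ≤ (a + 2) ^ (a + 1) * Fintype.card V ^ ((a + 2) ^ (a + 1)) * numPerfect G := by
  classical
  refine ratio_bound _ hZ ?_
  intro N u v L p hN hA hmin
  have h1 := Kf_le a (a + 1)
  by_contra hc
  obtain ⟨S, -, hS, hSI⟩ := indep_of_long hN hA hmin ha (a + 1) 0 (L + 1) (by omega) le_rfl
  have := ha S hSI
  omega

/-- graphs with an Ore type degree condition with constant deficiency -/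
theorem ratio_ore [Fintype V] [DecidableRel G.Adj] (c : ℕ)
    (hdeg : ∀ u v : V, u ≠ v → ¬ G.Adj u v → Fintype.card V ≤ G.degree u + G.degree v + c)
    (hZ : 0 < numPerfect G) :
    numNearPerfect G ≤ (c + 2) * Fintype.card V ^ (c + 2) * numPerfect G := by
  classical
  refine ratio_bound _ hZ ?_
  intro N u v L p hN hA hmin
  by_contra hc
  have h1 := ore_bound hN hA hmin (by omega)
  by_cases huv : G.Adj u v
  · -- then the direct edge is an augmenting sequence
    have : Aug G N u v 0 (fun x => if x = 0 then u else v) := by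
      refine ⟨?_, by simp, by simp, by intro t ht; omega, ?_⟩
      · intro a b ha hb hab
        by_cases h1 : a = 0 <;> by_cases h2 : b = 0
        · omega
        · rw [if_pos h1, if_neg h2] at hab; exact absurd hab hN.huv
        · rw [if_neg h1, if_pos h2] at hab; exact absurd hab.symm hN.huv
        · omega
      · intro t ht
        have : t = 0 := by omega
        subst this
        simpa using huv
    have := hmin _ _ this
    omega
  · have h2 := hdeg u v hN.huv huv
    omega

end Vale.Agent.H24.Mat
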